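import Vale.Agent.P312.Main

namespace Vale.Agent.Results.P312.TwoFifths
open Vale.Agent.P312

theorem result : ∀ (a : ℕ) (t : ℕ → ℕ), (∀ n, n ≤ t n) →
    TIME1 a t ⊆ SPACE a (fun n => (t n : ℝ) ^ (2 / 5 : ℝ) * Real.log (t n + 2) ^ 2) ∧
    ∀ e : ℝ, 2 / 5 < e → TIME1 a t ⊆ SPACE a (fun n => (t n : ℝ) ^ e) := by
  intro a t ht
  refine ⟨main t ht, fun e he => ?_⟩
  obtain ⟨K, hK, h⟩ := log_bound he
  exact (main t ht).trans (space_mono hK (fun n => by positivity) (fun n => by positivity)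
    fun n => h (t n))

end Vale.Agent.Results.P312.TwoFifths
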